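import Mathlib

/-!
# Row 323, module II-B: the curve `c^2 + 5 S^2 = 1`, `d^2 - 5 S^2 = 1` and its group law
-/

set_option autoImplicit false
set_option linter.unusedSectionVars false
set_option linter.unusedVariables false

namespace Crest.Agent.SFC

/-- the points of the curve over an ordered field -/
@[ext] structure Cv (K : Type*) [Field K] where
  S : K
  c : K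
  d : K
  hc : c ^ 2 = 1 - 5 * S ^ 2
  hd : d ^ 2 = 1 + 5 * S ^ 2

namespace Cv

variable {K : Type*} [Field K] [LinearOrder K] [IsStrictOrderedRing K]

theorem den_pos (x y : K) : 0 < 1 + 25 * x ^ 2 * y ^ 2 := by positivity

instance : Zero (Cv K) := ⟨⟨0, 1, 1, by norm_num, by norm_num⟩⟩

instance : Neg (Cv K) := ⟨fun P => ⟨-P.S, P.c, P.d, by rw [neg_sq]; exact P.hc, by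
  rw [neg_sq]; exact P.hd⟩⟩

instance : Add (Cv K) := ⟨fun P Q =>
  { S := (P.S * Q.c * Q.d + Q.S * P.c * P.d) / (1 + 25 * P.S ^ 2 * Q.S ^ 2)
    c := (P.c * Q.c - 5 * P.S * Q.S * P.d * Q.d) / (1 + 25 * P.S ^ 2 * Q.S ^ 2)
    d := (P.d * Q.d + 5 * P.S * Q.S * P.c * Q.c) / (1 + 25 * P.S ^ 2 * Q.S ^ 2)
    hc := by
      have h0 := (den_pos P.S Q.S).ne'
      have hc1 := P.hc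
      have hd1 := P.hd
      have hc2 := Q.hc
      have hd2 := Q.hd
      generalize P.S = S1 at *
      generalize Q.S = S2 at *
      generalize P.c = c1 at *
      generalize Q.c = c2 at *
      generalize P.d = d1 at *
      generalize Q.d = d2 at *
      rw [div_pow, div_pow, eq_sub_iff_add_eq, mul_div_assoc', ← add_div, div_eq_one_iff_eq
        (pow_ne_zero 2 h0)]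
      linear_combination (5*S2^2*d1^2 + c2^2) * hc1 + (25*S1^2*S2^2*d2^2 - 25*S1^2*S2^2 + 5*S2^2) * hd1 +
        (5*S1^2*d2^2 - 5*S1^2 + 1) * hc2 + (125*S1^4*S2^2 + 5*S1^2) * hd2
    hd := by
      have h0 := (den_pos P.S Q.S).ne'
      have hc1 := P.hc
      have hd1 := P.hd
      have hc2 := Q.hc
      have hd2 := Q.hd
      generalize P.S = S1 at *
      generalize Q.S = S2 at *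
      generalize P.c = c1 at *
      generalize Q.c = c2 at *
      generalize P.d = d1 at *
      generalize Q.d = d2 at *
      rw [div_pow, div_pow, ← sub_eq_iff_eq_add, mul_div_assoc', ← sub_div, div_eq_one_iff_eq
        (pow_ne_zero 2 h0)]
      linear_combination (25*S1^2*S2^2*c2^2 - 5*S2^2*d1^2) * hc1 + (25*S1^2*S2^2 - 5*S2^2 + d2^2) * hd1 +
        (-125*S1^4*S2^2 + 25*S1^2*S2^2 - 5*S1^2*d2^2) * hc2 + (25*S1^2*S2^2 + 1) * hd2 }⟩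

@[simp] theorem zero_S : (0 : Cv K).S = 0 := rfl
@[simp] theorem zero_c : (0 : Cv K).c = 1 := rfl
@[simp] theorem zero_d : (0 : Cv K).d = 1 := rfl
@[simp] theorem neg_S (P : Cv K) : (-P).S = -P.S := rfl
@[simp] theorem neg_c (P : Cv K) : (-P).c = P.c := rfl
@[simp] theorem neg_d (P : Cv K) : (-P).d = P.d := rfl
theorem add_S (P Q : Cv K) : (P + Q).S =
    (P.S * Q.c * Q.d + Q.S * P.c * P.d) / (1 + 25 * P.S ^ 2 * Q.S ^ 2) := rfl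
theorem add_c (P Q : Cv K) : (P + Q).c =
    (P.c * Q.c - 5 * P.S * Q.S * P.d * Q.d) / (1 + 25 * P.S ^ 2 * Q.S ^ 2) := rfl
theorem add_d (P Q : Cv K) : (P + Q).d =
    (P.d * Q.d + 5 * P.S * Q.S * P.c * Q.c) / (1 + 25 * P.S ^ 2 * Q.S ^ 2) := rfl

private theorem assoc_S {S1 S2 S3 c1 c2 c3 d1 d2 d3 : K}
    (hc1 : c1 ^ 2 = 1 - 5 * S1 ^ 2) (hd1 : d1 ^ 2 = 1 + 5 * S1 ^ 2)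
    (hc2 : c2 ^ 2 = 1 - 5 * S2 ^ 2) (hd2 : d2 ^ 2 = 1 + 5 * S2 ^ 2)
    (hc3 : c3 ^ 2 = 1 - 5 * S3 ^ 2) (hd3 : d3 ^ 2 = 1 + 5 * S3 ^ 2) :
    ((1 + 25 * S1 ^ 2 * S2 ^ 2) * (S1 * c2 * d2 + S2 * c1 * d1) * c3 * d3 +
      S3 * (c1 * c2 - 5 * S1 * S2 * d1 * d2) * (d1 * d2 + 5 * S1 * S2 * c1 * c2)) *
      ((1 + 25 * S2 ^ 2 * S3 ^ 2) ^ 2 + 25 * (S2 * c3 * d3 + S3 * c2 * d2) ^ 2 * S1 ^ 2) =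
    (S1 * (c2 * c3 - 5 * S2 * S3 * d2 * d3) * (d2 * d3 + 5 * S2 * S3 * c2 * c3) +
      (1 + 25 * S2 ^ 2 * S3 ^ 2) * (S2 * c3 * d3 + S3 * c2 * d2) * c1 * d1) *
      ((1 + 25 * S1 ^ 2 * S2 ^ 2) ^ 2 + 25 * (S1 * c2 * d2 + S2 * c1 * d1) ^ 2 * S3 ^ 2) := by
  linear_combination
    (125*S1^3*S2^3*S3*c2^2*c3^2*d3^2 + 250*S1^3*S2^2*S3^2*c2^3*c3*d2*d3 +
    125*S1^3*S2*S3^3*c2^4*d2^2 + 3125*S1*S2^5*S3^5*c2^2 - 625*S1*S2^4*S3^4*c2*c3*d1^2*d2*d3 -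
    1250*S1*S2^3*S3^5*c2^2*d1^2*d2^2 - 125*S1*S2^3*S3^3*c2^2*c3^2*d1^2 + 250*S1*S2^3*S3^3*c2^2
    + 125*S1*S2^3*S3^3*d1^2*d2^2*d3^2 - 75*S1*S2^2*S3^2*c2*c3*d1^2*d2*d3 -
    50*S1*S2*S3^3*c2^2*d1^2*d2^2 + 5*S1*S2*S3*c2^2 - 625*S2^5*S3^4*c1*c3*d1^3*d3 -
    625*S2^4*S3^5*c1*c2*d1^3*d2 - 25*S2^3*S3^2*c1*c3*d1^3*d3 - 25*S2^2*S3^3*c1*c2*d1^3*d2) *
    hc1 + (3125*S1^3*S2^4*S3^4*c2*c3*d2*d3 + 6250*S1^3*S2^3*S3^5*c2^2*d2^2 +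
    625*S1^3*S2^3*S3^3*c2^2*c3^2 - 625*S1^3*S2^3*S3^3*d2^2*d3^2 -
    125*S1^3*S2^3*S3*c3^2*d2^2*d3^2 - 250*S1^3*S2^2*S3^2*c2*c3*d2^3*d3 +
    375*S1^3*S2^2*S3^2*c2*c3*d2*d3 - 125*S1^3*S2*S3^3*c2^2*d2^4 + 250*S1^3*S2*S3^3*c2^2*d2^2 +
    3125*S1^2*S2^5*S3^4*c1*c3*d1*d3 + 3125*S1^2*S2^4*S3^5*c1*c2*d1*d2 +
    125*S1^2*S2^3*S3^2*c1*c3*d1*d3 + 125*S1^2*S2^2*S3^3*c1*c2*d1*d2 - 3125*S1*S2^5*S3^5*d2^2 -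
    625*S1*S2^4*S3^4*c2*c3*d2*d3 - 1250*S1*S2^3*S3^5*c2^2*d2^2 - 125*S1*S2^3*S3^3*c2^2*c3^2 +
    125*S1*S2^3*S3^3*d2^2*d3^2 - 250*S1*S2^3*S3^3*d2^2 - 75*S1*S2^2*S3^2*c2*c3*d2*d3 -
    50*S1*S2*S3^3*c2^2*d2^2 - 5*S1*S2*S3*d2^2 - 625*S2^5*S3^4*c1*c3*d1*d3 -
    625*S2^4*S3^5*c1*c2*d1*d2 - 25*S2^3*S3^2*c1*c3*d1*d3 - 25*S2^2*S3^3*c1*c2*d1*d2) * hd1 +
    (-3125*S1^5*S2^5*S3*c3^2 + 31250*S1^5*S2^3*S3^5*d2^2 + 3125*S1^5*S2^3*S3^3*c3^2 +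
    3125*S1^5*S2^3*S3^3*d2^2 + 1250*S1^5*S2^3*S3*c3^2*d2^2*d3^2 - 625*S1^5*S2^3*S3*c3^2*d3^2 +
    625*S1^5*S2^2*S3^2*c2*c3*d2^3*d3 - 1250*S1^5*S2^2*S3^2*c2*c3*d2*d3 -
    625*S1^5*S2*S3^3*c2^2*d2^2 - 625*S1^5*S2*S3^3*d2^4 + 625*S1^5*S2*S3^3*d2^2 -
    625*S1^4*S2^3*S3^2*c1*c3*d1*d2^2*d3 - 625*S1^4*S2^2*S3^3*c1*c2*d1*d2^3 -
    15625*S1^3*S2^5*S3^5 + 625*S1^3*S2^3*S3^3*c3^2*d2^2 - 625*S1^3*S2^3*S3^3*d2^2 -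
    1250*S1^3*S2^3*S3^3 + 125*S1^3*S2^3*S3*c3^2*d3^2 - 250*S1^3*S2^3*S3*c3^2 +
    625*S1^3*S2^2*S3^4*c2*c3*d2^3*d3 + 250*S1^3*S2^2*S3^2*c2*c3*d2*d3 -
    125*S1^3*S2*S3^3*c2^2*c3^2*d2^2 + 125*S1^3*S2*S3^3*c2^2*d2^2 - 125*S1^3*S2*S3^3*c3^2*d2^2 +
    125*S1^3*S2*S3^3*d2^4*d3^2 - 125*S1^3*S2*S3^3*d2^4 + 125*S1^3*S2*S3^3*d2^2 +
    50*S1^3*S2*S3*c3^2*d2^2*d3^2 - 25*S1^3*S2*S3 + 625*S1^2*S2^3*S3^4*c1*c3*d1*d2^2*d3 -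
    625*S1^2*S2^2*S3^5*c1*c2*d1*d2^3 - 250*S1^2*S2^2*S3^3*c1*c2*c3^2*d1*d2 + 3125*S1*S2^5*S3^5
    - 1250*S1*S2^3*S3^5*d2^2 - 125*S1*S2^3*S3^3*c3^2 + 250*S1*S2^3*S3^3 - 50*S1*S2*S3^3*d2^2 -
    5*S1*S2*S3*c3^2 + 5*S1*S2*S3) * hc2 + (-156250*S1^5*S2^5*S3^5 - 6250*S1^5*S2^5*S3*c3^2*d3^2
    + 3125*S1^5*S2^5*S3*d3^2 - 3125*S1^5*S2^4*S3^2*c2*c3*d2*d3 + 31250*S1^5*S2^3*S3^5 +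
    3125*S1^5*S2^3*S3^3*d2^2 - 3125*S1^5*S2^3*S3^3*d3^2 + 625*S1^5*S2^3*S3*c3^2*d3^2 -
    625*S1^5*S2^2*S3^2*c2*c3*d2*d3 - 625*S1^5*S2*S3^3*d2^2 + 3125*S1^4*S2^5*S3^2*c1*c3*d1*d3 +
    3125*S1^4*S2^4*S3^3*c1*c2*d1*d2 - 625*S1^4*S2^3*S3^2*c1*c3*d1*d3 -
    625*S1^4*S2^2*S3^3*c1*c2*d1*d2 - 15625*S1^3*S2^5*S3^5 - 3125*S1^3*S2^5*S3^3*c3^2 -
    3125*S1^3*S2^5*S3^3*d3^2 + 6250*S1^3*S2^5*S3^3 - 3125*S1^3*S2^4*S3^4*c2*c3*d2*d3 +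
    1250*S1^3*S2^3*S3^3*c3^2 - 625*S1^3*S2^3*S3^3*d2^2*d3^2 + 625*S1^3*S2^3*S3^3*d2^2 -
    2500*S1^3*S2^3*S3^3 - 375*S1^3*S2^3*S3*c3^2*d3^2 + 250*S1^3*S2^3*S3*d3^2 +
    625*S1^3*S2^2*S3^4*c2*c3*d2*d3 - 250*S1^3*S2^2*S3^2*c2*c3*d2*d3 - 125*S1^3*S2*S3^3*c3^2 +
    125*S1^3*S2*S3^3*d2^2*d3^2 - 125*S1^3*S2*S3^3*d2^2 + 125*S1^3*S2*S3^3*d3^2 +
    50*S1^3*S2*S3*c3^2*d3^2 - 25*S1^3*S2*S3 - 3125*S1^2*S2^5*S3^4*c1*c3*d1*d3 +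
    3125*S1^2*S2^4*S3^5*c1*c2*d1*d2 + 625*S1^2*S2^3*S3^4*c1*c3*d1*d3 -
    625*S1^2*S2^2*S3^5*c1*c2*d1*d2 + 250*S1^2*S2^2*S3^3*c1*c2*d1*d2*d3^2 + 3125*S1*S2^5*S3^5 -
    1250*S1*S2^3*S3^5 + 125*S1*S2^3*S3^3*d3^2 - 50*S1*S2*S3^3 + 5*S1*S2*S3*d3^2 - 5*S1*S2*S3) *
    hd2 + (-31250*S1^5*S2^7*S3*d3^2 + 15625*S1^5*S2^7*S3 - 15625*S1^5*S2^5*S3^3 -
    3125*S1^5*S2^5*S3 + 625*S1^5*S2^4*c2*c3*d2*d3^3 + 3125*S1^5*S2^3*S3^3 +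
    625*S1^4*S2^5*c1*c3*d1*d3^3 + 625*S1^4*S2^4*S3*c1*c2*d1*d2*d3^2 - 15625*S1^3*S2^7*S3^3 +
    3125*S1^3*S2^5*S3^3 - 2500*S1^3*S2^5*S3*d3^2 + 1250*S1^3*S2^5*S3 + 625*S1^3*S2^3*S3^3 -
    250*S1^3*S2^3*S3 + 25*S1^3*S2^2*c2*c3*d2*d3^3 - 125*S1^3*S2*S3^3 + 50*S1^3*S2*S3*d3^2 +
    1250*S1^2*S2^4*S3^3*c1*c2*d1*d2 + 25*S1^2*S2^3*c1*c3*d1*d3^3 -
    250*S1^2*S2^2*S3^3*c1*c2*d1*d2 + 75*S1^2*S2^2*S3*c1*c2*d1*d2*d3^2 + 625*S1*S2^5*S3^3 -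
    125*S1*S2^3*S3^3 + 25*S1*S2^3*S3 - 5*S1*S2*S3) * hc3 + (156250*S1^5*S2^7*S3^3 -
    15625*S1^5*S2^7*S3 - 15625*S1^5*S2^5*S3^3 + 3125*S1^5*S2^5*S3 -
    3125*S1^5*S2^4*S3^2*c2*c3*d2*d3 + 625*S1^5*S2^4*c2*c3*d2*d3 - 3125*S1^5*S2^3*S3^3 -
    3125*S1^4*S2^5*S3^2*c1*c3*d1*d3 + 625*S1^4*S2^5*c1*c3*d1*d3 -
    3125*S1^4*S2^4*S3^3*c1*c2*d1*d2 + 625*S1^4*S2^4*S3*c1*c2*d1*d2 - 15625*S1^3*S2^7*S3^3 +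
    9375*S1^3*S2^5*S3^3 - 1250*S1^3*S2^5*S3 + 625*S1^3*S2^3*S3^3 + 250*S1^3*S2^3*S3 -
    125*S1^3*S2^2*S3^2*c2*c3*d2*d3 + 25*S1^3*S2^2*c2*c3*d2*d3 - 125*S1^3*S2*S3^3 +
    50*S1^3*S2*S3 + 1250*S1^2*S2^4*S3^3*c1*c2*d1*d2 - 125*S1^2*S2^3*S3^2*c1*c3*d1*d3 +
    25*S1^2*S2^3*c1*c3*d1*d3 - 125*S1^2*S2^2*S3^3*c1*c2*d1*d2 + 75*S1^2*S2^2*S3*c1*c2*d1*d2 +
    625*S1*S2^5*S3^3 + 125*S1*S2^3*S3^3 + 25*S1*S2^3*S3 + 5*S1*S2*S3) * hd3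

private theorem assoc_c {S1 S2 S3 c1 c2 c3 d1 d2 d3 : K}
    (hc1 : c1 ^ 2 = 1 - 5 * S1 ^ 2) (hd1 : d1 ^ 2 = 1 + 5 * S1 ^ 2)
    (hc2 : c2 ^ 2 = 1 - 5 * S2 ^ 2) (hd2 : d2 ^ 2 = 1 + 5 * S2 ^ 2)
    (hc3 : c3 ^ 2 = 1 - 5 * S3 ^ 2) (hd3 : d3 ^ 2 = 1 + 5 * S3 ^ 2) :
    ((1 + 25 * S1 ^ 2 * S2 ^ 2) * (c1 * c2 - 5 * S1 * S2 * d1 * d2) * c3 -
      5 * (S1 * c2 * d2 + S2 * c1 * d1) * S3 * (d1 * d2 + 5 * S1 * S2 * c1 * c2) * d3) *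
      ((1 + 25 * S2 ^ 2 * S3 ^ 2) ^ 2 + 25 * (S2 * c3 * d3 + S3 * c2 * d2) ^ 2 * S1 ^ 2) =
    ((1 + 25 * S2 ^ 2 * S3 ^ 2) * c1 * (c2 * c3 - 5 * S2 * S3 * d2 * d3) -
      5 * S1 * (S2 * c3 * d3 + S3 * c2 * d2) * d1 * (d2 * d3 + 5 * S2 * S3 * c2 * c3)) *
      ((1 + 25 * S1 ^ 2 * S2 ^ 2) ^ 2 + 25 * (S1 * c2 * d2 + S2 * c1 * d1) ^ 2 * S3 ^ 2) := by
  linear_combination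
    (-625*S1^3*S2^4*S3*c2*c3^2*d1*d3^3 - 1250*S1^3*S2^3*S3^2*c2^2*c3*d1*d2*d3^2 -
    625*S1^3*S2^2*S3^3*c2^3*d1*d2^2*d3 - 15625*S1*S2^6*S3^5*c2*d1*d3 +
    6250*S1*S2^4*S3^5*c2*d1*d2^2*d3 + 625*S1*S2^4*S3^3*c2*c3^2*d1^3*d3 -
    1250*S1*S2^4*S3^3*c2*d1*d3 + 625*S1*S2^3*S3^4*c2^2*c3*d1^3*d2 -
    1250*S1*S2^3*S3^4*c2^2*c3*d1*d2 + 125*S1*S2^3*S3^2*c3*d1^3*d2*d3^2 +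
    125*S1*S2^2*S3^3*c2*d1^3*d2^2*d3 + 250*S1*S2^2*S3^3*c2*d1*d2^2*d3 - 25*S1*S2^2*S3*c2*d1*d3
    - 50*S1*S2*S3^2*c2^2*c3*d1*d2 + 3125*S2^5*S3^5*c1*d1^2*d2*d3 - 625*S2^4*S3^4*c1*c2*c3*d1^2
    + 125*S2^3*S3^3*c1*d1^2*d2*d3 - 25*S2^2*S3^2*c1*c2*c3*d1^2) * hc1 +
    (-3125*S1^3*S2^4*S3^3*c2*c3^2*d1*d3 - 3125*S1^3*S2^3*S3^4*c2^2*c3*d1*d2 -
    625*S1^3*S2^3*S3^2*c3*d1*d2*d3^2 - 625*S1^3*S2^2*S3^3*c2*d1*d2^2*d3 -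
    15625*S1^2*S2^5*S3^5*c1*d2*d3 + 3125*S1^2*S2^4*S3^4*c1*c2*c3 +
    1250*S1^2*S2^3*S3^3*c1*c2^2*c3^2*d2*d3 - 625*S1^2*S2^3*S3^3*c1*d2*d3 -
    125*S1^2*S2^3*S3*c1*c3^2*d2*d3^3 + 1250*S1^2*S2^2*S3^4*c1*c2^3*c3*d2^2 +
    125*S1^2*S2^2*S3^2*c1*c2*c3 + 125*S1^2*S2*S3^3*c1*c2^2*d2^3*d3 +
    625*S1*S2^4*S3^3*c2*c3^2*d1*d3 + 625*S1*S2^3*S3^4*c2^2*c3*d1*d2 +
    125*S1*S2^3*S3^2*c3*d1*d2*d3^2 + 125*S1*S2^2*S3^3*c2*d1*d2^2*d3 - 625*S2^4*S3^4*c1*c2*c3 -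
    125*S2^3*S3^3*c1*d2*d3 - 25*S2^2*S3^2*c1*c2*c3 - 5*S2*S3*c1*d2*d3) * hd1 +
    (15625*S1^5*S2^5*S3^2*c3*d1*d2 - 15625*S1^5*S2^3*S3^4*c3*d1*d2 -
    3125*S1^5*S2^3*S3^2*c3*d1*d2^3 + 6250*S1^5*S2^3*S3^2*c3*d1*d2*d3^2 +
    3125*S1^5*S2^2*S3^3*c2*d1*d2^2*d3 + 6250*S1^4*S2^3*S3^3*c1*c3^2*d2*d3 +
    3125*S1^4*S2^3*S3^3*c1*d2^3*d3 - 625*S1^4*S2^3*S3*c1*c3^2*d2*d3^3 +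
    1250*S1^4*S2^3*S3*c1*c3^2*d2*d3 + 6250*S1^4*S2^2*S3^4*c1*c2*c3*d2^2 -
    1250*S1^4*S2^2*S3^2*c1*c2*c3*d2^2*d3^2 + 625*S1^4*S2^2*S3^2*c1*c2*c3*d2^2 -
    625*S1^4*S2*S3^3*c1*c2^2*d2^3*d3 - 3125*S1^3*S2^3*S3^4*c3*d1*d2^3 +
    6250*S1^3*S2^3*S3^4*c3*d1*d2 - 1250*S1^3*S2^3*S3^2*c3*d1*d2*d3^2 +
    1250*S1^3*S2^3*S3^2*c3*d1*d2 + 625*S1^3*S2^2*S3^3*c2*c3^2*d1*d2^2*d3 -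
    625*S1^3*S2^2*S3^3*c2*d1*d2^2*d3 + 625*S1^3*S2*S3^4*c2^2*c3*d1*d2^3 +
    625*S1^3*S2*S3^4*c3*d1*d2^3 - 125*S1^3*S2*S3^2*c3*d1*d2^3*d3^2 -
    125*S1^3*S2*S3^2*c3*d1*d2^3 + 250*S1^3*S2*S3^2*c3*d1*d2 - 15625*S1^2*S2^5*S3^5*c1*d2*d3 +
    3125*S1^2*S2^3*S3^5*c1*d2^3*d3 + 1250*S1^2*S2^3*S3^3*c1*c3^2*d2*d3 -
    1250*S1^2*S2^3*S3^3*c1*d2*d3 + 625*S1^2*S2^2*S3^4*c1*c2*c3*d2^2 +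
    250*S1^2*S2*S3^3*c1*d2^3*d3 + 50*S1^2*S2*S3*c1*c3^2*d2*d3 - 25*S1^2*S2*S3*c1*d2*d3 -
    625*S1*S2^3*S3^4*c3*d1*d2 - 25*S1*S2*S3^2*c3*d1*d2) * hc2 + (15625*S1^5*S2^5*S3^2*c3*d1*d2
    - 15625*S1^5*S2^4*S3^3*c2*d1*d3 - 6250*S1^5*S2^4*S3*c2*c3^2*d1*d3 +
    3125*S1^5*S2^4*S3*c2*d1*d3 - 3125*S1^5*S2^3*S3^2*c3*d1*d2 - 15625*S1^4*S2^5*S3^3*c1*d2*d3 -
    31250*S1^4*S2^4*S3^4*c1*c2*c3 + 6250*S1^4*S2^4*S3^2*c1*c2*c3*d3^2 -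
    3125*S1^4*S2^4*S3^2*c1*c2*c3 + 3125*S1^4*S2^3*S3^3*c1*d2*d3 + 6250*S1^4*S2^2*S3^4*c1*c2*c3
    - 1250*S1^4*S2^2*S3^2*c1*c2*c3*d3^2 + 625*S1^4*S2^2*S3^2*c1*c2*c3 +
    15625*S1^3*S2^5*S3^4*c3*d1*d2 - 31250*S1^3*S2^4*S3^5*c2*d1*d3 -
    3125*S1^3*S2^4*S3^3*c2*c3^2*d1*d3 + 3125*S1^3*S2^4*S3^3*c2*d1*d3 -
    6250*S1^3*S2^3*S3^4*c3*d1*d2 + 625*S1^3*S2^3*S3^2*c3*d1*d2*d3^2 +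
    625*S1^3*S2^3*S3^2*c3*d1*d2 + 625*S1^3*S2^2*S3^3*c2*c3^2*d1*d3 -
    1875*S1^3*S2^2*S3^3*c2*d1*d3 - 125*S1^3*S2^2*S3*c2*c3^2*d1*d3^3 -
    250*S1^3*S2^2*S3*c2*c3^2*d1*d3 + 250*S1^3*S2^2*S3*c2*d1*d3 + 625*S1^3*S2*S3^4*c3*d1*d2 -
    125*S1^3*S2*S3^2*c3*d1*d2*d3^2 - 125*S1^3*S2*S3^2*c3*d1*d2 - 15625*S1^2*S2^5*S3^5*c1*d2*d3
    - 3125*S1^2*S2^4*S3^4*c1*c2*c3 + 3125*S1^2*S2^3*S3^5*c1*d2*d3 -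
    1250*S1^2*S2^3*S3^3*c1*d2*d3 + 625*S1^2*S2^2*S3^4*c1*c2*c3 + 250*S1^2*S2*S3^3*c1*d2*d3 +
    3125*S1*S2^4*S3^5*c2*d1*d3 + 125*S1*S2^2*S3^3*c2*d1*d3) * hd2 +
    (-15625*S1^5*S2^6*S3*c2*d1*d3 - 3125*S1^5*S2^5*c3*d1*d2*d3^2 -
    15625*S1^5*S2^4*S3^3*c2*d1*d3 + 3125*S1^5*S2^4*S3*c2*d1*d3^3 - 6250*S1^5*S2^4*S3*c2*d1*d3 -
    31250*S1^4*S2^5*S3^3*c1*d2*d3 + 3125*S1^4*S2^5*S3*c1*d2*d3^3 - 6250*S1^4*S2^5*S3*c1*d2*d3 +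
    625*S1^4*S2^4*c1*c2*c3*d3^2 + 6250*S1^4*S2^3*S3^3*c1*d2*d3 - 1250*S1^4*S2^3*S3*c1*d2*d3^3 +
    1250*S1^4*S2^3*S3*c1*d2*d3 - 15625*S1^3*S2^6*S3^3*c2*d1*d3 - 1250*S1^3*S2^4*S3*c2*d1*d3^3 -
    125*S1^3*S2^3*c3*d1*d2*d3^2 + 625*S1^3*S2^2*S3^3*c2*d1*d3 - 125*S1^3*S2^2*S3*c2*d1*d3^3 -
    250*S1^3*S2^2*S3*c2*d1*d3 - 6250*S1^2*S2^5*S3^3*c1*d2*d3 + 1250*S1^2*S2^3*S3^3*c1*d2*d3 -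
    125*S1^2*S2^3*S3*c1*d2*d3^3 - 250*S1^2*S2^3*S3*c1*d2*d3 + 25*S1^2*S2^2*c1*c2*c3*d3^2 +
    50*S1^2*S2*S3*c1*d2*d3 + 625*S1*S2^4*S3^3*c2*d1*d3 + 25*S1*S2^2*S3*c2*d1*d3) * hc3 +
    (-15625*S1^5*S2^5*S3^2*c3*d1*d2 - 15625*S1^5*S2^4*S3^3*c2*d1*d3 +
    3125*S1^5*S2^4*S3*c2*d1*d3 + 3125*S1^5*S2^3*S3^2*c3*d1*d2 + 31250*S1^4*S2^6*S3^2*c1*c2*c3 -
    15625*S1^4*S2^5*S3^3*c1*d2*d3 + 3125*S1^4*S2^5*S3*c1*d2*d3 - 3125*S1^4*S2^4*S3^2*c1*c2*c3 +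
    625*S1^4*S2^4*c1*c2*c3 + 6250*S1^4*S2^3*S3^3*c1*d2*d3 - 1250*S1^4*S2^3*S3*c1*d2*d3 -
    1250*S1^4*S2^2*S3^2*c1*c2*c3 + 9375*S1^3*S2^5*S3^2*c3*d1*d2 + 6250*S1^3*S2^4*S3^3*c2*d1*d3
    - 1250*S1^3*S2^4*S3*c2*d1*d3 - 625*S1^3*S2^3*S3^2*c3*d1*d2 + 125*S1^3*S2^3*c3*d1*d2 +
    625*S1^3*S2^2*S3^3*c2*d1*d3 - 125*S1^3*S2^2*S3*c2*d1*d3 - 125*S1^3*S2*S3^2*c3*d1*d2 +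
    625*S1^2*S2^3*S3^3*c1*d2*d3 - 125*S1^2*S2^3*S3*c1*d2*d3 - 125*S1^2*S2^2*S3^2*c1*c2*c3 +
    25*S1^2*S2^2*c1*c2*c3 + 125*S1*S2^3*S3^2*c3*d1*d2 + 5*S1*S2*c3*d1*d2) * hd3

private theorem assoc_d {S1 S2 S3 c1 c2 c3 d1 d2 d3 : K}
    (hc1 : c1 ^ 2 = 1 - 5 * S1 ^ 2) (hd1 : d1 ^ 2 = 1 + 5 * S1 ^ 2)
    (hc2 : c2 ^ 2 = 1 - 5 * S2 ^ 2) (hd2 : d2 ^ 2 = 1 + 5 * S2 ^ 2)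
    (hc3 : c3 ^ 2 = 1 - 5 * S3 ^ 2) (hd3 : d3 ^ 2 = 1 + 5 * S3 ^ 2) :
    ((1 + 25 * S1 ^ 2 * S2 ^ 2) * (d1 * d2 + 5 * S1 * S2 * c1 * c2) * d3 +
      5 * (S1 * c2 * d2 + S2 * c1 * d1) * S3 * (c1 * c2 - 5 * S1 * S2 * d1 * d2) * c3) *
      ((1 + 25 * S2 ^ 2 * S3 ^ 2) ^ 2 + 25 * (S2 * c3 * d3 + S3 * c2 * d2) ^ 2 * S1 ^ 2) =
    ((1 + 25 * S2 ^ 2 * S3 ^ 2) * d1 * (d2 * d3 + 5 * S2 * S3 * c2 * c3) +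
      5 * S1 * (S2 * c3 * d3 + S3 * c2 * d2) * c1 * (c2 * c3 - 5 * S2 * S3 * d2 * d3)) *
      ((1 + 25 * S1 ^ 2 * S2 ^ 2) ^ 2 + 25 * (S1 * c2 * d2 + S2 * c1 * d1) ^ 2 * S3 ^ 2) := by
  linear_combination
    (1250*S1^2*S2^3*S3^3*c2*c3*d1*d2^2*d3^2 + 125*S1^2*S2^3*S3*c2*c3^3*d1*d3^2 +
    1250*S1^2*S2^2*S3^4*c2^2*d1*d2^3*d3 - 125*S1^2*S2*S3^3*c2^3*c3*d1*d2^2 +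
    625*S1*S2^4*S3^3*c1*c3*d1^2*d2*d3^2 + 625*S1*S2^3*S3^4*c1*c2*d1^2*d2^2*d3 -
    125*S1*S2^3*S3^2*c1*c2*c3^2*d1^2*d3 - 125*S1*S2^2*S3^3*c1*c2^2*c3*d1^2*d2 -
    3125*S2^5*S3^5*c2*c3*d1^3 + 3125*S2^5*S3^5*c2*c3*d1 - 625*S2^4*S3^4*d1^3*d2*d3 -
    125*S2^3*S3^3*c2*c3*d1^3 + 250*S2^3*S3^3*c2*c3*d1 - 25*S2^2*S3^2*d1^3*d2*d3 +
    5*S2*S3*c2*c3*d1) * hc1 + (-3125*S1^3*S2^4*S3^3*c1*c3*d2*d3^2 -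
    625*S1^3*S2^4*S3*c1*c3^3*d2*d3^2 - 3125*S1^3*S2^3*S3^4*c1*c2*d2^2*d3 -
    1250*S1^3*S2^3*S3^2*c1*c2*c3^2*d2^2*d3 + 625*S1^3*S2^3*S3^2*c1*c2*c3^2*d3 -
    625*S1^3*S2^2*S3^3*c1*c2^2*c3*d2^3 + 625*S1^3*S2^2*S3^3*c1*c2^2*c3*d2 +
    15625*S1^2*S2^5*S3^5*c2*c3*d1 + 3125*S1^2*S2^4*S3^4*d1*d2*d3 + 625*S1^2*S2^3*S3^3*c2*c3*d1
    + 125*S1^2*S2^2*S3^2*d1*d2*d3 - 15625*S1*S2^6*S3^5*c1*c3*d2 -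
    6250*S1*S2^4*S3^5*c1*c2^2*c3*d2 + 625*S1*S2^4*S3^3*c1*c3*d2*d3^2 -
    1250*S1*S2^4*S3^3*c1*c3*d2 - 625*S1*S2^3*S3^4*c1*c2*d2^2*d3 -
    125*S1*S2^3*S3^2*c1*c2*c3^2*d3 - 375*S1*S2^2*S3^3*c1*c2^2*c3*d2 - 25*S1*S2^2*S3*c1*c3*d2 -
    50*S1*S2*S3^2*c1*c2*d2^2*d3 - 3125*S2^5*S3^5*c2*c3*d1 - 625*S2^4*S3^4*d1*d2*d3 -
    125*S2^3*S3^3*c2*c3*d1 - 25*S2^2*S3^2*d1*d2*d3) * hd1 + (6250*S1^5*S2^4*S3*c1*c3*d2*d3^2 -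
    3125*S1^5*S2^4*S3*c1*c3*d2 + 3125*S1^5*S2^3*S3^2*c1*c2*d2^2*d3 -
    3125*S1^5*S2^2*S3^3*c1*c3*d2^3 + 3125*S1^5*S2^2*S3^3*c1*c3*d2 -
    6250*S1^4*S2^2*S3^4*d1*d2^3*d3 - 1250*S1^4*S2^2*S3^2*c3^2*d1*d2^3*d3 +
    625*S1^4*S2^2*S3^2*d1*d2^3*d3 - 625*S1^4*S2*S3^3*c2*c3*d1*d2^4 +
    625*S1^4*S2*S3^3*c2*c3*d1*d2^2 - 31250*S1^3*S2^4*S3^5*c1*c3*d2 +
    625*S1^3*S2^2*S3^3*c1*c3*d2^3*d3^2 - 625*S1^3*S2^2*S3^3*c1*c3*d2^3 -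
    1250*S1^3*S2^2*S3^3*c1*c3*d2 + 125*S1^3*S2^2*S3*c1*c3^3*d2*d3^2 +
    250*S1^3*S2^2*S3*c1*c3*d2*d3^2 - 250*S1^3*S2^2*S3*c1*c3*d2 + 625*S1^3*S2*S3^4*c1*c2*d2^4*d3
    + 125*S1^3*S2*S3^2*c1*c2*c3^2*d2^2*d3 + 125*S1^3*S2*S3^2*c1*c2*d2^2*d3 -
    3125*S1^2*S2^3*S3^5*c2*c3*d1*d2^2 + 625*S1^2*S2^2*S3^4*d1*d2^3*d3 -
    250*S1^2*S2*S3^3*c2*c3*d1*d2^2 - 3125*S1*S2^4*S3^5*c1*c3*d2 - 125*S1*S2^2*S3^3*c1*c3*d2) *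
    hc2 + (15625*S1^5*S2^4*S3^3*c1*c3*d2 - 15625*S1^5*S2^3*S3^4*c1*c2*d3 -
    6250*S1^5*S2^3*S3^2*c1*c2*c3^2*d3 + 3125*S1^5*S2^3*S3^2*c1*c2*d3 -
    3125*S1^5*S2^2*S3^3*c1*c3*d2 + 15625*S1^4*S2^5*S3^3*c2*c3*d1 +
    31250*S1^4*S2^4*S3^4*d1*d2*d3 + 6250*S1^4*S2^4*S3^2*c3^2*d1*d2*d3 -
    3125*S1^4*S2^4*S3^2*d1*d2*d3 + 3125*S1^4*S2^3*S3^3*c2*c3*d1*d2^2 -
    6250*S1^4*S2^3*S3^3*c2*c3*d1*d3^2 - 3125*S1^4*S2^3*S3^3*c2*c3*d1 -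
    625*S1^4*S2^3*S3*c2*c3^3*d1*d3^2 + 1250*S1^4*S2^3*S3*c2*c3*d1*d3^2 -
    6250*S1^4*S2^2*S3^4*d1*d2*d3 - 1250*S1^4*S2^2*S3^2*c3^2*d1*d2*d3 +
    625*S1^4*S2^2*S3^2*d1*d2*d3 - 625*S1^4*S2*S3^3*c2*c3*d1*d2^2 -
    15625*S1^3*S2^5*S3^4*c1*c2*d3 - 3125*S1^3*S2^4*S3^3*c1*c3*d2*d3^2 +
    3125*S1^3*S2^4*S3^3*c1*c3*d2 - 3125*S1^3*S2^3*S3^4*c1*c2*d2^2*d3 -
    6250*S1^3*S2^3*S3^4*c1*c2*d3 - 1875*S1^3*S2^3*S3^2*c1*c2*c3^2*d3 +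
    625*S1^3*S2^3*S3^2*c1*c2*d3 + 625*S1^3*S2^2*S3^3*c1*c3*d2*d3^2 -
    625*S1^3*S2^2*S3^3*c1*c3*d2 + 625*S1^3*S2*S3^4*c1*c2*d2^2*d3 + 625*S1^3*S2*S3^4*c1*c2*d3 +
    125*S1^3*S2*S3^2*c1*c2*c3^2*d3 - 125*S1^3*S2*S3^2*c1*c2*d3 - 3125*S1^2*S2^4*S3^4*d1*d2*d3 -
    3125*S1^2*S2^3*S3^5*c2*c3*d1 + 1250*S1^2*S2^3*S3^3*c2*c3*d1*d3^2 +
    625*S1^2*S2^2*S3^4*d1*d2*d3 - 250*S1^2*S2*S3^3*c2*c3*d1 + 50*S1^2*S2*S3*c2*c3*d1*d3^2 -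
    25*S1^2*S2*S3*c2*c3*d1 - 625*S1*S2^3*S3^4*c1*c2*d3 - 25*S1*S2*S3^2*c1*c2*d3) * hd2 +
    (-31250*S1^5*S2^5*S3^2*c1*c2*d3 + 3125*S1^5*S2^5*c1*c2*d3^3 - 3125*S1^5*S2^5*c1*c2*d3 -
    3125*S1^5*S2^4*S3*c1*c3*d2*d3^2 - 3125*S1^5*S2^3*S3^2*c1*c2*d3 +
    31250*S1^4*S2^6*S3^2*d1*d2*d3 - 3125*S1^4*S2^5*S3*c2*c3*d1*d3^2 + 625*S1^4*S2^4*d1*d2*d3^3
    - 1250*S1^4*S2^3*S3*c2*c3*d1*d3^2 - 1250*S1^4*S2^2*S3^2*d1*d2*d3 -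
    9375*S1^3*S2^5*S3^2*c1*c2*d3 - 1250*S1^3*S2^4*S3*c1*c3*d2*d3^2 -
    1250*S1^3*S2^3*S3^2*c1*c2*d3 + 125*S1^3*S2^3*c1*c2*d3^3 - 250*S1^3*S2^3*c1*c2*d3 +
    125*S1^3*S2^2*S3*c1*c3*d2*d3^2 + 125*S1^3*S2*S3^2*c1*c2*d3 + 125*S1^2*S2^3*S3*c2*c3*d1*d3^2
    + 25*S1^2*S2^2*d1*d2*d3^3 - 125*S1*S2^3*S3^2*c1*c2*d3 - 5*S1*S2*c1*c2*d3) * hc3 +
    (-15625*S1^5*S2^6*S3*c1*c3*d2 - 15625*S1^5*S2^5*S3^2*c1*c2*d3 + 3125*S1^5*S2^5*c1*c2*d3 +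
    3125*S1^5*S2^4*S3*c1*c3*d2 - 15625*S1^4*S2^5*S3^3*c2*c3*d1 + 3125*S1^4*S2^5*S3*c2*c3*d1 -
    3125*S1^4*S2^4*S3^2*d1*d2*d3 + 625*S1^4*S2^4*d1*d2*d3 - 15625*S1^3*S2^6*S3^3*c1*c3*d2 +
    6250*S1^3*S2^4*S3^3*c1*c3*d2 - 1250*S1^3*S2^4*S3*c1*c3*d2 - 625*S1^3*S2^3*S3^2*c1*c2*d3 +
    125*S1^3*S2^3*c1*c2*d3 + 375*S1^3*S2^2*S3*c1*c3*d2 + 6250*S1^2*S2^5*S3^3*c2*c3*d1 +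
    625*S1^2*S2^3*S3^3*c2*c3*d1 + 375*S1^2*S2^3*S3*c2*c3*d1 - 125*S1^2*S2^2*S3^2*d1*d2*d3 +
    25*S1^2*S2^2*d1*d2*d3 + 50*S1^2*S2*S3*c2*c3*d1 + 625*S1*S2^4*S3^3*c1*c3*d2 +
    25*S1*S2^2*S3*c1*c3*d2) * hd3

private theorem auxS {E NS Nc Nd c3 d3 S3 : K} (hE : E ≠ 0) :
    ((NS / E) * c3 * d3 + S3 * (Nc / E) * (Nd / E)) / (1 + 25 * (NS / E) ^ 2 * S3 ^ 2) =
      (E * NS * c3 * d3 + S3 * Nc * Nd) / (E ^ 2 + 25 * NS ^ 2 * S3 ^ 2) := by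
  have h1 : (NS / E) * c3 * d3 + S3 * (Nc / E) * (Nd / E) =
      (E * NS * c3 * d3 + S3 * Nc * Nd) / E ^ 2 := by
    field_simp
  have h2 : 1 + 25 * (NS / E) ^ 2 * S3 ^ 2 = (E ^ 2 + 25 * NS ^ 2 * S3 ^ 2) / E ^ 2 := by
    field_simp
  rw [h1, h2, div_div_div_cancel_right₀ (pow_ne_zero 2 hE)]

private theorem auxc {E NS Nc Nd c3 d3 S3 : K} (hE : E ≠ 0) :
    ((Nc / E) * c3 - 5 * (NS / E) * S3 * (Nd / E) * d3) / (1 + 25 * (NS / E) ^ 2 * S3 ^ 2) =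
      (E * Nc * c3 - 5 * NS * S3 * Nd * d3) / (E ^ 2 + 25 * NS ^ 2 * S3 ^ 2) := by
  have h1 : (Nc / E) * c3 - 5 * (NS / E) * S3 * (Nd / E) * d3 =
      (E * Nc * c3 - 5 * NS * S3 * Nd * d3) / E ^ 2 := by
    field_simp
  have h2 : 1 + 25 * (NS / E) ^ 2 * S3 ^ 2 = (E ^ 2 + 25 * NS ^ 2 * S3 ^ 2) / E ^ 2 := by
    field_simp
  rw [h1, h2, div_div_div_cancel_right₀ (pow_ne_zero 2 hE)]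

private theorem auxd {E NS Nc Nd c3 d3 S3 : K} (hE : E ≠ 0) :
    ((Nd / E) * d3 + 5 * (NS / E) * S3 * (Nc / E) * c3) / (1 + 25 * (NS / E) ^ 2 * S3 ^ 2) =
      (E * Nd * d3 + 5 * NS * S3 * Nc * c3) / (E ^ 2 + 25 * NS ^ 2 * S3 ^ 2) := by
  have h1 : (Nd / E) * d3 + 5 * (NS / E) * S3 * (Nc / E) * c3 =
      (E * Nd * d3 + 5 * NS * S3 * Nc * c3) / E ^ 2 := by
    field_simp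
  have h2 : 1 + 25 * (NS / E) ^ 2 * S3 ^ 2 = (E ^ 2 + 25 * NS ^ 2 * S3 ^ 2) / E ^ 2 := by
    field_simp
  rw [h1, h2, div_div_div_cancel_right₀ (pow_ne_zero 2 hE)]

private theorem aux_pos {E x y : K} (hE : 0 < E) : 0 < E ^ 2 + 25 * x ^ 2 * y ^ 2 := by
  positivity

protected theorem comm (P Q : Cv K) : P + Q = Q + P := by
  ext
  · rw [add_S, add_S]
    congr 1 <;> ring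
  · rw [add_c, add_c]
    congr 1 <;> ring
  · rw [add_d, add_d]
    congr 1 <;> ring

protected theorem assoc (P Q R : Cv K) : P + Q + R = P + (Q + R) := by
  have hE1 := den_pos P.S Q.S
  have hE2 := den_pos Q.S R.S
  rw [Cv.comm P (Q + R)]
  ext
  · rw [add_S (P + Q) R, add_S (Q + R) P, add_S P Q, add_c P Q, add_d P Q, add_S Q R, add_c Q R,
      add_d Q R, auxS hE1.ne', auxS hE2.ne', div_eq_div_iff (aux_pos hE1).ne' (aux_pos hE2).ne']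
    linear_combination assoc_S P.hc P.hd Q.hc Q.hd R.hc R.hd
  · rw [add_c (P + Q) R, add_c (Q + R) P, add_S P Q, add_c P Q, add_d P Q, add_S Q R, add_c Q R,
      add_d Q R, auxc hE1.ne', auxc hE2.ne', div_eq_div_iff (aux_pos hE1).ne' (aux_pos hE2).ne']
    linear_combination assoc_c P.hc P.hd Q.hc Q.hd R.hc R.hd
  · rw [add_d (P + Q) R, add_d (Q + R) P, add_S P Q, add_c P Q, add_d P Q, add_S Q R, add_c Q R,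
      add_d Q R, auxd hE1.ne', auxd hE2.ne', div_eq_div_iff (aux_pos hE1).ne' (aux_pos hE2).ne']
    linear_combination assoc_d P.hc P.hd Q.hc Q.hd R.hc R.hd

protected theorem add_zero' (P : Cv K) : P + 0 = P := by
  ext
  · rw [add_S]; simp
  · rw [add_c]; simp
  · rw [add_d]; simp

protected theorem neg_add' (P : Cv K) : -P + P = 0 := by
  have h0 := (den_pos P.S P.S).ne'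
  have hc := P.hc
  have hd := P.hd
  ext
  · rw [add_S]
    simp only [neg_S, neg_c, neg_d, zero_S]
    rw [div_eq_zero_iff]
    left
    ring
  · rw [add_c]
    simp only [neg_S, neg_c, neg_d, zero_c, neg_sq]
    rw [div_eq_one_iff_eq h0]
    linear_combination hc + 5 * P.S ^ 2 * hd
  · rw [add_d]
    simp only [neg_S, neg_c, neg_d, zero_d, neg_sq]
    rw [div_eq_one_iff_eq h0]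
    linear_combination hd - 5 * P.S ^ 2 * hc

instance : AddCommGroup (Cv K) where
  add_assoc := Cv.assoc
  zero_add P := by rw [Cv.comm, Cv.add_zero']
  add_zero := Cv.add_zero'
  nsmul := nsmulRec
  zsmul := zsmulRec
  neg_add_cancel := Cv.neg_add'
  add_comm := Cv.comm

end Cv

end Crest.Agent.SFC
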